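import Mathlib

open MeasureTheory ProbabilityTheory Real
open scoped RealInnerProductSpace

namespace Vale.Agent.P226

lemma integral_Ioi_mul_exp : ∫ x in Set.Ioi (0:ℝ), x * rexp (-(x^2)/2) = 1 := by
  have h := integral_rpow_mul_exp_neg_mul_rpow (p := 2) (q := 1) (b := 1/2)
    (by norm_num) (by norm_num) (by norm_num)
  have h2 : ∫ x in Set.Ioi (0:ℝ), x * rexp (-(x^2)/2)
      = ∫ x in Set.Ioi (0:ℝ), x ^ (1:ℝ) * rexp (-(1/2) * x ^ (2:ℝ)) := by
    refine setIntegral_congr_fun measurableSet_Ioi (fun x hx => ?_)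
    simp only [rpow_one, rpow_two]
    congr 2
    ring
  rw [h2, h]
  norm_num

lemma integral_abs_gaussianReal_std : ∫ x, |x| ∂(gaussianReal 0 1) = √(2 / π) := by
  rw [integral_gaussianReal_eq_integral_smul (by norm_num)]
  simp only [gaussianPDFReal, smul_eq_mul, sub_zero, NNReal.coe_one, mul_one]
  have h1 : ∀ x : ℝ, (√(2 * π))⁻¹ * rexp (-x ^ 2 / 2) * |x|
      = (fun y : ℝ => (√(2 * π))⁻¹ * (y * rexp (-(y ^ 2) / 2))) |x| := by
    intro x
    simp only [sq_abs]
    ring
  simp_rw [h1]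
  rw [integral_comp_abs (f := fun y : ℝ => (√(2 * π))⁻¹ * (y * rexp (-(y ^ 2) / 2)))]
  rw [integral_const_mul, integral_Ioi_mul_exp]
  have hpi : (0:ℝ) < π := Real.pi_pos
  rw [mul_one]
  have : √(2/π) = 2 * (√(2 * π))⁻¹ := by
    rw [Real.sqrt_eq_iff_mul_self_eq (by positivity) (by positivity)]
    have h3 : √(2 * π) * √(2 * π) = 2 * π := Real.mul_self_sqrt (by positivity)
    have h4 : √(2 * π) ≠ 0 := by positivity
    field_simp
    nlinarith [h3]
  rw [this]

variable {E : Type*} [NormedAddCommGroup E] [InnerProductSpace ℝ E] [FiniteDimensional ℝ E]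
  [MeasurableSpace E] [BorelSpace E]

lemma integral_abs_inner (v : E) :
    ∫ x, |⟪v, x⟫| ∂(stdGaussian E) = √(2 / π) * ‖v‖ := by
  have hmap : (stdGaussian E).map (innerSL ℝ v) = gaussianReal 0 (‖v‖ ^ 2).toNNReal := by
    rw [IsGaussian.map_eq_gaussianReal, integral_strongDual_stdGaussian,
      variance_dual_stdGaussian, innerSL_apply_norm]
  have h1 : ∫ x, |⟪v, x⟫| ∂(stdGaussian E) = ∫ y, |y| ∂((stdGaussian E).map (innerSL ℝ v)) := by
    rw [integral_map (by fun_prop) (by fun_prop)]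
    rfl
  have h2 : gaussianReal 0 (‖v‖ ^ 2).toNNReal = (gaussianReal 0 1).map (‖v‖ * ·) := by
    rw [gaussianReal_map_const_mul]
    congr 1
    · simp
    · ext
      simp
  rw [h1, hmap, h2, integral_map (by fun_prop) (by fun_prop)]
  simp_rw [abs_mul, abs_norm]
  rw [integral_const_mul, integral_abs_gaussianReal_std, mul_comm]

lemma integrable_inner (v : E) : Integrable (fun x => ⟪v, x⟫) (stdGaussian E) :=
  IsGaussian.integrable_dual (stdGaussian E) (innerSL ℝ v)

lemma map_neg_stdGaussian : (stdGaussian E).map (fun x => -x) = stdGaussian E :=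
  stdGaussian_map (LinearIsometryEquiv.neg ℝ)

end Vale.Agent.P226
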