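import Vale.Agent.P226.Triples

open MeasureTheory ProbabilityTheory Real
open scoped RealInnerProductSpace

namespace Vale.Agent.P226

variable {E : Type*} [NormedAddCommGroup E] [InnerProductSpace ℝ E]

/-- running maximum (with 0) of the functions `H a`, `a` in a list of triples -/
noncomputable def G : List (E × E × E) → E → ℝ
  | [], _ => 0
  | a :: L, x => max (H a x) (G L x)

noncomputable def S (L : List (E × E × E)) : ℝ := (L.map sq3).sum

def u0 (a b : E × E × E) : E × E × E := (a.1 + b.1, a.2.1 + b.2.1, a.2.2 + b.2.2)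
def u1 (a b : E × E × E) : E × E × E := (a.1 + b.2.1, a.2.1 + b.2.2, a.2.2 + b.1)
def u2 (a b : E × E × E) : E × E × E := (a.1 + b.2.2, a.2.1 + b.1, a.2.2 + b.2.1)

lemma S_nonneg (L : List (E × E × E)) : 0 ≤ S L := by
  unfold S
  apply List.sum_nonneg
  intro r hr
  obtain ⟨a, _, rfl⟩ := List.mem_map.1 hr
  exact sq3_nonneg a

lemma G_nonneg (L : List (E × E × E)) (x : E) : 0 ≤ G L x := by
  induction L with
  | nil => simp [G]
  | cons a L ih => exact le_trans ih (le_max_right _ _)

lemma H_le_G {L : List (E × E × E)} {a : E × E × E} (ha : a ∈ L) (x : E) : H a x ≤ G L x := by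
  induction L with
  | nil => simp at ha
  | cons b L ih =>
    rcases List.mem_cons.1 ha with rfl | h
    · exact le_max_left _ _
    · exact le_trans (ih h) (le_max_right _ _)

lemma centered_u0 {a b : E × E × E} (ha : Centered a) (hb : Centered b) : Centered (u0 a b) := by
  unfold Centered u0 at *
  simp only
  calc a.1 + b.1 + (a.2.1 + b.2.1) + (a.2.2 + b.2.2)
      = (a.1 + a.2.1 + a.2.2) + (b.1 + b.2.1 + b.2.2) := by abel
    _ = 0 := by rw [ha, hb, add_zero]

lemma centered_u1 {a b : E × E × E} (ha : Centered a) (hb : Centered b) : Centered (u1 a b) := by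
  unfold Centered u1 at *
  simp only
  calc a.1 + b.2.1 + (a.2.1 + b.2.2) + (a.2.2 + b.1)
      = (a.1 + a.2.1 + a.2.2) + (b.1 + b.2.1 + b.2.2) := by abel
    _ = 0 := by rw [ha, hb, add_zero]

lemma centered_u2 {a b : E × E × E} (ha : Centered a) (hb : Centered b) : Centered (u2 a b) := by
  unfold Centered u2 at *
  simp only
  calc a.1 + b.2.2 + (a.2.1 + b.1) + (a.2.2 + b.2.1)
      = (a.1 + a.2.1 + a.2.2) + (b.1 + b.2.1 + b.2.2) := by abel
    _ = 0 := by rw [ha, hb, add_zero]

lemma real_merge_left (p0 p1 p2 q0 q1 q2 : ℝ) (hq : q0 + q1 + q2 = 0) :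
    max (max p0 p1) p2 ≤ (max (max (p0 + q0) (p1 + q1)) (p2 + q2)
      + max (max (p0 + q1) (p1 + q2)) (p2 + q0) + max (max (p0 + q2) (p1 + q0)) (p2 + q1)) / 3 := by
  have a1 := le_max_left (max (p0 + q0) (p1 + q1)) (p2 + q2)
  have a2 := le_max_right (max (p0 + q0) (p1 + q1)) (p2 + q2)
  have a3 := le_max_left (p0 + q0) (p1 + q1)
  have a4 := le_max_right (p0 + q0) (p1 + q1)
  have b1 := le_max_left (max (p0 + q1) (p1 + q2)) (p2 + q0)
  have b2 := le_max_right (max (p0 + q1) (p1 + q2)) (p2 + q0)
  have b3 := le_max_left (p0 + q1) (p1 + q2)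
  have b4 := le_max_right (p0 + q1) (p1 + q2)
  have c1 := le_max_left (max (p0 + q2) (p1 + q0)) (p2 + q1)
  have c2 := le_max_right (max (p0 + q2) (p1 + q0)) (p2 + q1)
  have c3 := le_max_left (p0 + q2) (p1 + q0)
  have c4 := le_max_right (p0 + q2) (p1 + q0)
  refine max_le (max_le ?_ ?_) ?_ <;> linarith

lemma real_merge_right (p0 p1 p2 q0 q1 q2 : ℝ) (hp : p0 + p1 + p2 = 0) :
    max (max q0 q1) q2 ≤ (max (max (p0 + q0) (p1 + q1)) (p2 + q2)
      + max (max (p0 + q1) (p1 + q2)) (p2 + q0) + max (max (p0 + q2) (p1 + q0)) (p2 + q1)) / 3 := by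
  have a1 := le_max_left (max (p0 + q0) (p1 + q1)) (p2 + q2)
  have a2 := le_max_right (max (p0 + q0) (p1 + q1)) (p2 + q2)
  have a3 := le_max_left (p0 + q0) (p1 + q1)
  have a4 := le_max_right (p0 + q0) (p1 + q1)
  have b1 := le_max_left (max (p0 + q1) (p1 + q2)) (p2 + q0)
  have b2 := le_max_right (max (p0 + q1) (p1 + q2)) (p2 + q0)
  have b3 := le_max_left (p0 + q1) (p1 + q2)
  have b4 := le_max_right (p0 + q1) (p1 + q2)
  have c1 := le_max_left (max (p0 + q2) (p1 + q0)) (p2 + q1)
  have c2 := le_max_right (max (p0 + q2) (p1 + q0)) (p2 + q1)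
  have c3 := le_max_left (p0 + q2) (p1 + q0)
  have c4 := le_max_right (p0 + q2) (p1 + q0)
  refine max_le (max_le ?_ ?_) ?_ <;> linarith

lemma inner_sum_zero {a : E × E × E} (ha : Centered a) (x : E) :
    ⟪a.1, x⟫ + ⟪a.2.1, x⟫ + ⟪a.2.2, x⟫ = 0 := by
  rw [← inner_add_left, ← inner_add_left, ha, inner_zero_left]

lemma H_left_le {a b : E × E × E} (hb : Centered b) (x : E) :
    H a x ≤ (H (u0 a b) x + H (u1 a b) x + H (u2 a b) x) / 3 := by
  unfold H u0 u1 u2
  simp only [inner_add_left]
  exact real_merge_left _ _ _ _ _ _ (inner_sum_zero hb x)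

lemma H_right_le {a b : E × E × E} (ha : Centered a) (x : E) :
    H b x ≤ (H (u0 a b) x + H (u1 a b) x + H (u2 a b) x) / 3 := by
  unfold H u0 u1 u2
  simp only [inner_add_left]
  exact real_merge_right _ _ _ _ _ _ (inner_sum_zero ha x)

lemma G_merge_le {a b : E × E × E} (ha : Centered a) (hb : Centered b)
    (L : List (E × E × E)) (x : E) :
    G (a :: b :: L) x ≤ (G (u0 a b :: L) x + G (u1 a b :: L) x + G (u2 a b :: L) x) / 3 := by
  simp only [G]
  have h1 := H_left_le (a := a) hb x
  have h2 := H_right_le (b := b) ha x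
  have a1 := le_max_left (H (u0 a b) x) (G L x)
  have a2 := le_max_right (H (u0 a b) x) (G L x)
  have b1 := le_max_left (H (u1 a b) x) (G L x)
  have b2 := le_max_right (H (u1 a b) x) (G L x)
  have c1 := le_max_left (H (u2 a b) x) (G L x)
  have c2 := le_max_right (H (u2 a b) x) (G L x)
  refine max_le ?_ (max_le ?_ ?_) <;> linarith

lemma sq3_merge {a b : E × E × E} (ha : Centered a) :
    sq3 (u0 a b) + sq3 (u1 a b) + sq3 (u2 a b) = 3 * (sq3 a + sq3 b) := by
  have h : ⟪a.1 + a.2.1 + a.2.2, b.1 + b.2.1 + b.2.2⟫ = 0 := by rw [ha, inner_zero_left]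
  simp only [inner_add_left, inner_add_right] at h
  unfold sq3 u0 u1 u2
  simp only [norm_add_sq_real]
  linarith

lemma sqrt3_le (s0 s1 s2 s : ℝ) (h0 : 0 ≤ s0) (h1 : 0 ≤ s1) (h2 : 0 ≤ s2)
    (hs : s0 + s1 + s2 = 3 * s) : (√s0 + √s1 + √s2) / 3 ≤ √s := by
  apply Real.le_sqrt_of_sq_le
  have e0 := Real.sq_sqrt h0
  have e1 := Real.sq_sqrt h1
  have e2 := Real.sq_sqrt h2
  nlinarith [sq_nonneg (√s0 - √s1), sq_nonneg (√s1 - √s2), sq_nonneg (√s0 - √s2)]

variable [FiniteDimensional ℝ E] [MeasurableSpace E] [BorelSpace E]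

lemma integrable_G (L : List (E × E × E)) : Integrable (G L) (stdGaussian E) := by
  induction L with
  | nil => exact integrable_zero _ _ _
  | cons a L ih => exact (integrable_H a).sup ih

theorem integral_G_le (n : ℕ) : ∀ L : List (E × E × E), L.length = n →
    (∀ a ∈ L, Centered a) → ∫ x, G L x ∂(stdGaussian E) ≤ C3 * √(S L) := by
  induction n with
  | zero =>
    intro L hL _
    obtain rfl := List.length_eq_zero_iff.1 hL
    simp [G, S]
  | succ n ih =>
    intro L hL hc
    match L, hL, hc with
    | [a], _, hc =>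
      have ha : Centered a := hc a (by simp)
      have h1 : ∀ x, G [a] x = H a x := by
        intro x
        simp only [G]
        exact max_eq_left (H_nonneg_of_centered ha x)
      simp_rw [h1]
      have h2 : S [a] = sq3 a := by simp [S]
      rw [h2]
      exact integral_H_le a
    | a :: b :: L, hL, hc =>
      have ha : Centered a := hc a (by simp)
      have hb : Centered b := hc b (by simp)
      have hL' : ∀ c ∈ L, Centered c := fun c hcL => hc c (by simp [hcL])
      have hlen : ∀ u : E × E × E, (u :: L).length = n := by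
        intro u
        simp only [List.length_cons] at hL ⊢
        omega
      have i0 := ih (u0 a b :: L) (hlen _) (by
        intro c hcm
        rcases List.mem_cons.1 hcm with rfl | h
        · exact centered_u0 ha hb
        · exact hL' c h)
      have i1 := ih (u1 a b :: L) (hlen _) (by
        intro c hcm
        rcases List.mem_cons.1 hcm with rfl | h
        · exact centered_u1 ha hb
        · exact hL' c h)
      have i2 := ih (u2 a b :: L) (hlen _) (by
        intro c hcm
        rcases List.mem_cons.1 hcm with rfl | h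
        · exact centered_u2 ha hb
        · exact hL' c h)
      have hmono : ∫ x, G (a :: b :: L) x ∂(stdGaussian E)
          ≤ ∫ x, (G (u0 a b :: L) x + G (u1 a b :: L) x + G (u2 a b :: L) x) / 3
            ∂(stdGaussian E) := by
        apply integral_mono (integrable_G _)
        · exact (((integrable_G _).add (integrable_G _)).add (integrable_G _)).div_const 3
        · intro x
          exact G_merge_le ha hb L x
      have h01 : Integrable (fun x => G (u0 a b :: L) x + G (u1 a b :: L) x) (stdGaussian E) :=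
        (integrable_G _).add (integrable_G _)
      rw [integral_div, integral_add h01 (integrable_G _),
        integral_add (integrable_G _) (integrable_G _)] at hmono
      have hS : ∀ u : E × E × E, S (u :: L) = sq3 u + S L := by
        intro u; simp [S]
      have hS2 : S (a :: b :: L) = sq3 a + sq3 b + S L := by
        simp [S]; ring
      rw [hS] at i0 i1 i2
      have hsq := sqrt3_le (sq3 (u0 a b) + S L) (sq3 (u1 a b) + S L) (sq3 (u2 a b) + S L)
        (sq3 a + sq3 b + S L)
        (add_nonneg (sq3_nonneg _) (S_nonneg _)) (add_nonneg (sq3_nonneg _) (S_nonneg _))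
        (add_nonneg (sq3_nonneg _) (S_nonneg _))
        (by have := sq3_merge (b := b) ha; linarith)
      rw [hS2]
      have hC := C3_nonneg
      have := mul_le_mul_of_nonneg_left hsq hC
      linarith

end Vale.Agent.P226
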