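import Vale.Agent.P226.Basic

open MeasureTheory ProbabilityTheory Real
open scoped RealInnerProductSpace

namespace Vale.Agent.P226

variable {E : Type*} [NormedAddCommGroup E] [InnerProductSpace ℝ E]

/-- maximum of the three linear forms attached to a triple of vectors -/
noncomputable def H (a : E × E × E) (x : E) : ℝ :=
  max (max ⟪a.1, x⟫ ⟪a.2.1, x⟫) ⟪a.2.2, x⟫

/-- sum of squared norms of a triple -/
noncomputable def sq3 (a : E × E × E) : ℝ := ‖a.1‖ ^ 2 + ‖a.2.1‖ ^ 2 + ‖a.2.2‖ ^ 2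

def Centered (a : E × E × E) : Prop := a.1 + a.2.1 + a.2.2 = 0

lemma sq3_nonneg (a : E × E × E) : 0 ≤ sq3 a := by unfold sq3; positivity

lemma max3_add_max3_neg (p q r : ℝ) :
    max (max p q) r + max (max (-p) (-q)) (-r) = (|p - q| + |q - r| + |p - r|) / 2 := by
  rcases le_total p q with h1 | h1 <;> rcases le_total q r with h2 | h2 <;>
    rcases le_total p r with h3 | h3 <;>
    simp only [max_eq_left, max_eq_right, abs_of_nonneg, abs_of_nonpos, neg_le_neg_iff,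
      sub_nonneg, sub_nonpos, h1, h2, h3] <;> linarith

lemma H_nonneg_of_centered {a : E × E × E} (ha : Centered a) (x : E) : 0 ≤ H a x := by
  have h : ⟪a.1, x⟫ + ⟪a.2.1, x⟫ + ⟪a.2.2, x⟫ = 0 := by
    rw [← inner_add_left, ← inner_add_left, ha, inner_zero_left]
  unfold H
  by_contra hc
  push Not at hc
  have h1 := lt_of_le_of_lt (le_max_right (max ⟪a.1, x⟫ ⟪a.2.1, x⟫) ⟪a.2.2, x⟫) hc
  have h2 := lt_of_le_of_lt (le_max_left (max ⟪a.1, x⟫ ⟪a.2.1, x⟫) ⟪a.2.2, x⟫) hc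
  have h3 := lt_of_le_of_lt (le_max_left ⟪a.1, x⟫ ⟪a.2.1, x⟫) h2
  have h4 := lt_of_le_of_lt (le_max_right ⟪a.1, x⟫ ⟪a.2.1, x⟫) h2
  linarith

lemma sum_norm_le (a : E × E × E) :
    ‖a.1 - a.2.1‖ + ‖a.2.1 - a.2.2‖ + ‖a.1 - a.2.2‖ ≤ 3 * √(sq3 a) := by
  have e1 := norm_sub_sq_real a.1 a.2.1
  have e2 := norm_sub_sq_real a.2.1 a.2.2
  have e3 := norm_sub_sq_real a.1 a.2.2
  have e4 : 0 ≤ ‖a.1 + a.2.1 + a.2.2‖ ^ 2 := by positivity
  have e5 : ‖a.1 + a.2.1 + a.2.2‖ ^ 2 = ‖a.1‖ ^ 2 + ‖a.2.1‖ ^ 2 + ‖a.2.2‖ ^ 2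
      + 2 * ⟪a.1, a.2.1⟫ + 2 * ⟪a.2.1, a.2.2⟫ + 2 * ⟪a.1, a.2.2⟫ := by
    rw [norm_add_sq_real, norm_add_sq_real, inner_add_left]
    ring
  have key : (‖a.1 - a.2.1‖ + ‖a.2.1 - a.2.2‖ + ‖a.1 - a.2.2‖) ^ 2 ≤ 9 * sq3 a := by
    unfold sq3
    nlinarith [sq_nonneg (‖a.1 - a.2.1‖ - ‖a.2.1 - a.2.2‖),
      sq_nonneg (‖a.2.1 - a.2.2‖ - ‖a.1 - a.2.2‖), sq_nonneg (‖a.1 - a.2.1‖ - ‖a.1 - a.2.2‖)]
  have h9 : √(9 * sq3 a) = 3 * √(sq3 a) := by
    rw [Real.sqrt_mul (by norm_num), show (9:ℝ) = 3 ^ 2 by norm_num,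
      Real.sqrt_sq (by norm_num)]
  rw [← h9]
  exact Real.le_sqrt_of_sq_le key

variable [FiniteDimensional ℝ E] [MeasurableSpace E] [BorelSpace E]

lemma integrable_H (a : E × E × E) : Integrable (H a) (stdGaussian E) :=
  ((integrable_inner a.1).sup (integrable_inner a.2.1)).sup (integrable_inner a.2.2)

lemma integral_H_neg (a : E × E × E) :
    ∫ x, H a (-x) ∂(stdGaussian E) = ∫ x, H a x ∂(stdGaussian E) := by
  have h := integral_map (μ := stdGaussian E) (φ := fun x : E => -x) (f := H a)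
    (by fun_prop) (by rw [map_neg_stdGaussian]; exact (integrable_H a).aestronglyMeasurable)
  rw [map_neg_stdGaussian] at h
  exact h.symm

lemma integral_H (a : E × E × E) :
    ∫ x, H a x ∂(stdGaussian E)
      = √(2 / π) / 4 * (‖a.1 - a.2.1‖ + ‖a.2.1 - a.2.2‖ + ‖a.1 - a.2.2‖) := by
  have hint : Integrable (fun x => H a (-x)) (stdGaussian E) := by
    have := (integrable_H a)
    rw [← map_neg_stdGaussian (E := E)] at this
    exact (integrable_map_measure this.aestronglyMeasurable (by fun_prop)).1 this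
  have h1 : ∫ x, (H a x + H a (-x)) ∂(stdGaussian E) = 2 * ∫ x, H a x ∂(stdGaussian E) := by
    rw [integral_add (integrable_H a) hint, integral_H_neg]
    ring
  have h2 : ∀ x, H a x + H a (-x)
      = (|⟪a.1 - a.2.1, x⟫| + |⟪a.2.1 - a.2.2, x⟫| + |⟪a.1 - a.2.2, x⟫|) / 2 := by
    intro x
    unfold H
    simp only [inner_neg_right, inner_sub_left]
    exact max3_add_max3_neg _ _ _
  simp_rw [h2] at h1
  rw [integral_div, integral_add, integral_add, integral_abs_inner, integral_abs_inner,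
    integral_abs_inner] at h1
  · linarith
  · exact (integrable_inner _).abs
  · exact (integrable_inner _).abs
  · exact ((integrable_inner _).abs).add ((integrable_inner _).abs)
  · exact (integrable_inner _).abs

/-- the sharp constant `3 / (2 * sqrt (2 * pi))`, written as `3/4 * sqrt (2/pi)` -/
noncomputable def C3 : ℝ := 3 / 4 * √(2 / π)

lemma C3_nonneg : 0 ≤ C3 := by unfold C3; positivity

lemma C3_sq : C3 ^ 2 = 9 / (8 * π) := by
  unfold C3
  rw [mul_pow, Real.sq_sqrt (by positivity)]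
  have := Real.pi_pos
  field_simp
  ring

lemma integral_H_le (a : E × E × E) :
    ∫ x, H a x ∂(stdGaussian E) ≤ C3 * √(sq3 a) := by
  rw [integral_H]
  have h := sum_norm_le a
  have h0 : 0 ≤ √(2 / π) := by positivity
  unfold C3
  nlinarith [mul_le_mul_of_nonneg_left h h0]

end Vale.Agent.P226
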